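import Mathlib
import Vale.Agent.P002R.YOrbStmt

/-!
# Framework: functions on a group which are multiplicative on a subgroup

All subgroups are subgroups of one group `F` (free of finite rank). A representation of a subgroup
`H` is a function on `F` that is multiplicative on `H` (the values outside `H` are irrelevant), so
that restriction to smaller subgroups is for free.
-/

namespace Vale.Agent.P002.H2

open Matrix NumberField Vale.Agent.P002R.Orb

variable {F : Type} [Group F] {I : Type} [MulAction F I]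

/-- `ρ` is multiplicative on `H`. -/
structure MulOn {M : Type*} [Monoid M] (H : Subgroup F) (ρ : F → M) : Prop where
  one : ρ 1 = 1
  mul : ∀ x ∈ H, ∀ y ∈ H, ρ (x * y) = ρ x * ρ y

/-- The derived series of `B` inside `F`. -/
def dser (B : Subgroup F) : ℕ → Subgroup F
  | 0 => B
  | k + 1 => ⁅dser B k, dser B k⁆

/-- The image of `A` under `ρ` is virtually solvable. -/
def VS {M : Type*} [Monoid M] (A : Subgroup F) (ρ : F → M) : Prop :=
  ∃ B : Subgroup F, B ≤ A ∧ B.relIndex A ≠ 0 ∧ ∃ k, ∀ x ∈ dser B k, ρ x = 1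

section lin

variable {V : Type} [AddCommGroup V] [Module ℂ V]

/-- No invariant subspaces under `H`. -/
def Irr (H : Subgroup F) (ρ : F → Module.End ℂ V) : Prop :=
  Nontrivial V ∧ ∀ W : Submodule ℂ V, (∀ x ∈ H, ∀ v ∈ W, ρ x v ∈ W) → W = ⊥ ∨ W = ⊤

/-- `A` acts by scalars. -/
def Scal (A : Subgroup F) (ρ : F → Module.End ℂ V) : Prop :=
  ∀ x ∈ A, ∃ c : ℂ, ρ x = c • (1 : Module.End ℂ V)

end lin

section mat

variable {n : Type} [Fintype n] [DecidableEq n]

/-- The linear maps defined by the matrices `σ x`. -/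
def lin (σ : F → SpecialLinearGroup n ℂ) : F → Module.End ℂ (n → ℂ) :=
  fun x => Matrix.toLin' (σ x).1

/-- The algebra of polynomial functions in the entries of the `σ x`, `x ∈ H`. -/
def PF (H : Subgroup F) (n : Type) [Fintype n] [DecidableEq n] :
    Subalgebra ℂ ((F → SpecialLinearGroup n ℂ) → ℂ) :=
  Algebra.adjoin ℂ {P | ∃ x ∈ H, ∃ i j, P = fun σ => (σ x).1 i j}

/-- The matrices `A x`, `x ∈ H`, have entries in `𝓞 L`. -/
def IntOn (L : IntermediateField ℚ ℂ) (H : Subgroup F) (A : F → Matrix n n ℂ) : Prop :=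
  ∀ x ∈ H, ∀ i j, ∃ a : 𝓞 L, A x i j = a.1.1

end mat

/-- The context: `Z` (which acts by scalars), the set `Rel` of the elements whose conjugacy classes
are prescribed, and the subgroups `N i`. -/
structure Ctx (F : Type) [Group F] (I : Type) [MulAction F I] where
  Z : Subgroup F
  Rel : Set F
  N : I → Subgroup F
  hZ : ∀ x y, y ∈ Z → x * y * x⁻¹ ∈ Z
  hZN : ∀ i, Z ≤ N i
  hst : ∀ i, N i ≤ MulAction.stabilizer F i
  hN : ∀ (x : F) (i : I) (y : F), y ∈ N i → x * y * x⁻¹ ∈ N (x • i)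
  hconj : ∀ x y, y ∈ Rel → x * y * x⁻¹ ∈ Rel
  hpow : ∀ y ∈ Rel, ∀ a : ℤ, y ^ a ∈ Rel
  hfi : ∀ i j, i ≠ j → j ∈ MulAction.orbit F i →
    ((N i ⊓ MulAction.stabilizer F j) ⊔ N j).relIndex (MulAction.stabilizer F j) ≠ 0

/-- The intersection of the `N i`. -/
def Ctx.K (C : Ctx F I) : Subgroup F := ⨅ i, C.N i

/-- `σ'` is an admissible integral deformation of `σ` on `H`. -/
structure IsDef (C : Ctx F I) (L : IntermediateField ℚ ℂ) (H : Subgroup F)
    {n : Type} [Fintype n] [DecidableEq n] (σ σ' : F → SpecialLinearGroup n ℂ) : Prop where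
  mul : MulOn H σ'
  int : ∃ Q : (Matrix n n ℂ)ˣ, IntOn L H fun x => Q.1 * (σ' x).1 * (Q⁻¹).1
  z : ∀ x ∈ C.Z, σ' x = σ x
  rel : ∀ y ∈ C.Rel, y ∈ H → IsConj (σ y) (σ' y)
  vs : VS (C.K ⊓ H) σ'

/-- The property `D`: the admissible integral deformations of `σ` are Zariski dense around `σ`. -/
def D (C : Ctx F I) (L : IntermediateField ℚ ℂ) (H : Subgroup F)
    {n : Type} [Fintype n] [DecidableEq n] (σ : F → SpecialLinearGroup n ℂ) : Prop :=
  ∀ P ∈ PF H n, P σ ≠ 0 → ∃ σ', IsDef C L H σ σ' ∧ P σ' ≠ 0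

/-- Admissible irreducible representations of `H`. -/
structure Adm (C : Ctx F I) (N₀ : ℕ) (H : Subgroup F)
    {V : Type} [AddCommGroup V] [Module ℂ V] (ρ : F → Module.End ℂ V) : Prop where
  mul : MulOn H ρ
  irr : Irr H ρ
  zle : C.Z ≤ H
  fi : H.index ≠ 0
  zscal : Scal C.Z ρ
  eig : ∀ y ∈ C.Rel, y ∈ H → ∀ a b, (ρ y).HasEigenvalue a → (ρ y).HasEigenvalue b →
    a ^ N₀ = b ^ N₀
  vs : VS (C.K ⊓ H) ρ

/-- `D` holds for the irreducible `σ` with virtually solvable image, `[F : H] n ≤ B`. -/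
def BaseVS (C : Ctx F I) (L : IntermediateField ℚ ℂ) (N₀ B : ℕ) : Prop :=
  ∀ (H : Subgroup F) (n : ℕ) (σ : F → SpecialLinearGroup (Fin n) ℂ), H.index * n ≤ B →
    MulOn H σ → Adm C N₀ H (lin σ) → VS H σ → D C L H σ

/-- `D` holds for the irreducible `σ` for which some `N i` acts by scalars and `H` fixes `i`. -/
def BaseCurve (C : Ctx F I) (L : IntermediateField ℚ ℂ) (N₀ B : ℕ) : Prop :=
  ∀ (H : Subgroup F) (n : ℕ) (σ : F → SpecialLinearGroup (Fin n) ℂ) (i : I), H.index * n ≤ B →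
    H ≤ MulAction.stabilizer F i → MulOn H σ → Adm C N₀ H (lin σ) →
    Scal (C.N i ⊓ H) (lin σ) → D C L H σ

/-- `ρ` (a representation of `H`) is induced from `χ ⊗ σ` on `H' ≤ H`, and `D` holds for `σ`. -/
def Good (C : Ctx F I) (L : IntermediateField ℚ ℂ) (H : Subgroup F)
    {V : Type} [AddCommGroup V] [Module ℂ V] (ρ : F → Module.End ℂ V) : Prop :=
  ∃ (H' : Subgroup F) (n : ℕ) (e : (Fin n → ℂ) →ₗ[ℂ] V) (χ : F → ℂˣ)
    (σ : F → SpecialLinearGroup (Fin n) ℂ),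
    H' ≤ H ∧ C.Z ≤ H' ∧ H'.relIndex H ≠ 0 ∧ Function.Injective e ∧
    MulOn H' χ ∧ MulOn H' σ ∧ D C L H' σ ∧
    (∀ x ∈ H', ∀ v, ρ x (e v) = (χ x : ℂ) • e ((σ x).1 *ᵥ v)) ∧
    (⨆ x ∈ H, (LinearMap.range e).map (ρ x)) = ⊤ ∧
    Module.finrank ℂ V = H'.relIndex H * n

end Vale.Agent.P002.H2
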